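import Mathlib

/-!
# P162 (Thorp shuffle): basic objects

`ρ : Perm α →* (V →L[ℝ] V)` is an orthogonal representation of a symmetric group on a real
Hilbert space; `Lap ρ` is the normalised Laplacian of the random transposition walk;
`Pos d` are the `2 ^ d` positions of the deck, split in two halves at each level, and
`But d ρ` is the operator of one round of `d` Thorp shuffles (a random butterfly network).
-/

namespace Vale.Agent.H8.Thorp

open Equiv
open scoped BigOperators

/-- orthogonal representation -/
def Orth {α : Type} {V : Type} [NormedAddCommGroup V] [InnerProductSpace ℝ V]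
    (ρ : Perm α →* (V →L[ℝ] V)) : Prop := ∀ (g : Perm α) (v : V), ‖ρ g v‖ = ‖v‖

/-- normalised Laplacian of the random transposition walk,
`(1/|α|) ∑_{i<j} (1 - ρ (i j))` -/
noncomputable def Lap {α : Type} [Fintype α] [DecidableEq α] {V : Type} [NormedAddCommGroup V]
    [InnerProductSpace ℝ V] (ρ : Perm α →* (V →L[ℝ] V)) : V →L[ℝ] V :=
  (2 * (Fintype.card α : ℝ))⁻¹ • ∑ i : α, ∑ j : α, (1 - ρ (swap i j))

/-- permutations of the left half -/
def inL (α : Type) : Perm α →* Perm (α ⊕ α) :=
  (Perm.sumCongrHom α α).comp (MonoidHom.inl (Perm α) (Perm α))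

/-- permutations of the right half -/
def inR (α : Type) : Perm α →* Perm (α ⊕ α) :=
  (Perm.sumCongrHom α α).comp (MonoidHom.inr (Perm α) (Perm α))

/-- the map exchanging `inl c` and `inr c` whenever `ε c = -1` -/
def flipFun {α : Type} (ε : α → ℤˣ) : α ⊕ α → α ⊕ α
  | Sum.inl c => if ε c = 1 then Sum.inl c else Sum.inr c
  | Sum.inr c => if ε c = 1 then Sum.inr c else Sum.inl c

theorem flipFun_mul {α : Type} (ε δ : α → ℤˣ) (x : α ⊕ α) :
    flipFun (ε * δ) x = flipFun ε (flipFun δ x) := by
  rcases x with c | c <;> rcases Int.units_eq_one_or (ε c) with h | h <;>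
    rcases Int.units_eq_one_or (δ c) with h' | h' <;> simp [flipFun, h, h']

theorem flipFun_one {α : Type} (x : α ⊕ α) : flipFun (1 : α → ℤˣ) x = x := by
  rcases x with c | c <;> simp [flipFun]

/-- column flips as a group homomorphism -/
def flip (α : Type) : (α → ℤˣ) →* Perm (α ⊕ α) where
  toFun ε :=
    { toFun := flipFun ε
      invFun := flipFun ε
      left_inv := fun x => by
        rw [← flipFun_mul]
        have : ε * ε = 1 := by ext c; simp
        rw [this, flipFun_one]
      right_inv := fun x => by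
        rw [← flipFun_mul]
        have : ε * ε = 1 := by ext c; simp
        rw [this, flipFun_one] }
  map_one' := by ext x; exact flipFun_one x
  map_mul' ε δ := by ext x; exact flipFun_mul ε δ x

@[simp] theorem flip_apply {α : Type} (ε : α → ℤˣ) (x : α ⊕ α) :
    flip α ε x = flipFun ε x := rfl

/-- average over all column flips -/
noncomputable def avg {α : Type} [Fintype α] [DecidableEq α] {V : Type} [NormedAddCommGroup V]
    [InnerProductSpace ℝ V] (ρ : Perm (α ⊕ α) →* (V →L[ℝ] V)) : V →L[ℝ] V :=
  (Fintype.card (α → ℤˣ) : ℝ)⁻¹ • ∑ ε : α → ℤˣ, ρ (flip α ε)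

/-- the `2 ^ d` positions -/
def Pos : ℕ → Type
  | 0 => Unit
  | d + 1 => Pos d ⊕ Pos d

instance Pos.fintype : (d : ℕ) → Fintype (Pos d)
  | 0 => inferInstanceAs (Fintype Unit)
  | d + 1 => @instFintypeSum _ _ (Pos.fintype d) (Pos.fintype d)

instance Pos.decEq : (d : ℕ) → DecidableEq (Pos d)
  | 0 => inferInstanceAs (DecidableEq Unit)
  | d + 1 => @instDecidableEqSum _ _ (Pos.decEq d) (Pos.decEq d)

theorem Pos.card (d : ℕ) : Fintype.card (Pos d) = 2 ^ d := by
  induction d with
  | zero => rfl
  | succ d ih =>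
    have : Fintype.card (Pos (d + 1)) = Fintype.card (Pos d) + Fintype.card (Pos d) :=
      Fintype.card_sum
    rw [this, ih]; ring

/-- one round of the butterfly network: the top bit is treated first (rightmost factor) -/
noncomputable def But {V : Type} [NormedAddCommGroup V] [InnerProductSpace ℝ V] :
    (d : ℕ) → (Perm (Pos d) →* (V →L[ℝ] V)) → (V →L[ℝ] V)
  | 0, _ => 1
  | d + 1, ρ => But d (ρ.comp (inL (Pos d))) * But d (ρ.comp (inR (Pos d))) * avg (α := Pos d) ρ

/-- `Z = Lap_L + Lap_R - Lap` -/
noncomputable def Zop {α : Type} [Fintype α] [DecidableEq α] {V : Type} [NormedAddCommGroup V]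
    [InnerProductSpace ℝ V] (ρ : Perm (α ⊕ α) →* (V →L[ℝ] V)) : V →L[ℝ] V :=
  Lap (ρ.comp (inL α)) + Lap (ρ.comp (inR α)) - Lap ρ

/-- the right regular representation of `Perm α` on `EuclideanSpace ℝ (Perm α)` -/
noncomputable def reg (α : Type) [Fintype α] [DecidableEq α] :
    Perm α →* (EuclideanSpace ℝ (Perm α) →L[ℝ] EuclideanSpace ℝ (Perm α)) where
  toFun h := LinearMap.toContinuousLinearMap
    { toFun := fun f => WithLp.toLp 2 (fun g => f (g * h))
      map_add' := fun f f' => by ext g; simp
      map_smul' := fun c f => by ext g; simp }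
  map_one' := by ext f g; simp
  map_mul' h k := by ext f g; simp [mul_assoc]

theorem reg_apply {α : Type} [Fintype α] [DecidableEq α] (h : Perm α)
    (f : EuclideanSpace ℝ (Perm α)) (g : Perm α) : reg α h f g = f (g * h) := rfl

end Vale.Agent.H8.Thorp
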