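import Mathlib

/-!
# P162: the Thorp shuffle of a deck of `2 * m` cards

Positions are numbered `0, …, 2m - 1`: the top half is `0, …, m - 1`, the bottom half is
`m, …, 2m - 1`. For each `i < m` the cards in positions `i` and `m + i` go to the positions
`2i` and `2i + 1`, in an order chosen by the coin `ω i`.
-/

namespace Vale.Agent.H8.Thorp

open Equiv
open scoped BigOperators

/-- new position of the card in position `x` when the coins are `ω` -/
def thorpFun (m : ℕ) (ω : Fin m → Bool) (x : Fin (2 * m)) : Fin (2 * m) :=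
  if h : (x : ℕ) < m then
    ⟨2 * (x : ℕ) + (if ω ⟨x, h⟩ then 1 else 0), by split_ifs <;> omega⟩
  else
    ⟨2 * ((x : ℕ) - m) + (if ω ⟨(x : ℕ) - m, by omega⟩ then 0 else 1), by
      have := x.2
      split_ifs <;> omega⟩

theorem thorpFun_injective (m : ℕ) (ω : Fin m → Bool) :
    Function.Injective (thorpFun m ω) := by
  intro x y h
  have hx := x.2
  have hy := y.2
  have hval : ((thorpFun m ω x : Fin (2 * m)) : ℕ) = (thorpFun m ω y : Fin (2 * m)) := by rw [h]
  apply Fin.ext
  unfold thorpFun at hval
  by_cases hx1 : (x : ℕ) < m <;> by_cases hy1 : (y : ℕ) < m <;>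
    simp only [hx1, hy1, dite_true, dite_false] at hval
  · split_ifs at hval <;> omega
  · exfalso
    have hxy : (x : ℕ) = (y : ℕ) - m := by split_ifs at hval <;> omega
    have h2 : (⟨(x : ℕ), hx1⟩ : Fin m) = ⟨(y : ℕ) - m, by omega⟩ := Fin.ext hxy
    rw [h2] at hval
    split_ifs at hval <;> omega
  · exfalso
    have hxy : (y : ℕ) = (x : ℕ) - m := by split_ifs at hval <;> omega
    have h2 : (⟨(y : ℕ), hy1⟩ : Fin m) = ⟨(x : ℕ) - m, by omega⟩ := Fin.ext hxy
    rw [h2] at hval
    split_ifs at hval <;> omega
  · split_ifs at hval <;> omega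

/-- the permutation of positions performed by one Thorp shuffle with coins `ω` -/
noncomputable def thorpPerm (m : ℕ) (ω : Fin m → Bool) : Perm (Fin (2 * m)) :=
  Equiv.ofBijective (thorpFun m ω)
    (Finite.injective_iff_bijective.1 (thorpFun_injective m ω))

/-- the law `q_n` on `S_n`, `n = 2 * m`, of one Thorp shuffle (all `m` coins fair and
independent) -/
noncomputable def thorpLaw (m : ℕ) (g : Perm (Fin (2 * m))) : ℝ :=
  (Nat.card {ω : Fin m → Bool // thorpPerm m ω = g} : ℝ) / 2 ^ m

/-- convolution of two functions on a finite group -/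
noncomputable def conv {G : Type} [Group G] [Fintype G] (μ ν : G → ℝ) (g : G) : ℝ :=
  ∑ h : G, μ h * ν (h⁻¹ * g)

/-- convolution powers; the power `0` is the point mass at the identity -/
noncomputable def convPow {G : Type} [Group G] [Fintype G] [DecidableEq G] (μ : G → ℝ) :
    ℕ → G → ℝ
  | 0 => fun g => if g = 1 then 1 else 0
  | t + 1 => conv (convPow μ t) μ

/-- total variation distance between the law of `t` Thorp shuffles and the uniform law -/
noncomputable def thorpTV (m t : ℕ) : ℝ :=
  (1 / 2) * ∑ g : Perm (Fin (2 * m)), |convPow (thorpLaw m) t g - 1 / (Nat.factorial (2 * m) : ℝ)|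

/-- the mixing time of the Thorp shuffle of a deck of `2 * m` cards -/
noncomputable def tmix (m : ℕ) : ℕ := sInf {t : ℕ | thorpTV m t ≤ 1 / 4}

end Vale.Agent.H8.Thorp
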